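import Vale.Agent.P160R.SmallEig.Chebyshev

/-!
# Sequential conditioning on disjoint coordinate sets
-/

namespace Vale.Agent.P160R.SmallEig

open Finset
open scoped Classical

/-- The sign vectors agreeing with a given one outside `K`. -/
lemma card_agree {α : Type*} [Fintype α] [DecidableEq α] (K : Finset α) (ω : α → Bool) :
    ((univ : Finset (α → Bool)).filter fun (ω₀ : α → Bool) =>
      ∀ e, e ∉ K → ω₀ e = ω e).card = 2 ^ K.card := by
  classical
  have : ((univ : Finset (α → Bool)).filter fun (ω₀ : α → Bool) =>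
      ∀ e, e ∉ K → ω₀ e = ω e)
      = Fintype.piFinset fun e => if e ∈ K then (univ : Finset Bool) else {ω e} := by
    ext ω₀
    simp only [mem_filter, mem_univ, true_and, Fintype.mem_piFinset]
    refine forall_congr' fun e => ?_
    by_cases he : e ∈ K <;> simp [he]
  rw [this, Fintype.card_piFinset]
  simp [apply_ite Finset.card, prod_ite_mem]

/-- Conditions read off disjoint coordinate sets multiply. -/
lemma card_seq_le {α : Type*} [Fintype α] [DecidableEq α] (k : ℕ) :
    ∀ (q : ℕ) (c : Fin q → (α → Bool) → Prop) (K : Fin q → Finset α),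
      (∀ t s, t < s → ∀ ω ω' : α → Bool, (∀ e, e ∉ K t → ω e = ω' e) → c s ω → c s ω') →
      (∀ t (ω₀ : α → Bool), ((univ : Finset (α → Bool)).filter fun (ω : α → Bool) =>
          (∀ e, e ∉ K t → ω e = ω₀ e) ∧ c t ω).card * k ≤ 8 * 2 ^ (K t).card) →
      ((univ : Finset (α → Bool)).filter fun (ω : α → Bool) => ∀ t, c t ω).card * k ^ q
        ≤ 8 ^ q * 2 ^ Fintype.card α
  | 0, c, K, _, _ => by simp
  | q + 1, c, K, hinv, hfib => by
    have ih := card_seq_le k q (fun t => c t.succ) (fun t => K t.succ)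
      (fun t s hts => hinv _ _ (Fin.succ_lt_succ_iff.2 hts)) (fun t => hfib _)
    set E := (univ : Finset (α → Bool)).filter fun (ω : α → Bool) => ∀ t, c t ω
    set E' := (univ : Finset (α → Bool)).filter fun (ω : α → Bool) => ∀ t : Fin q, c t.succ ω
    have h1 : E.card * 2 ^ (K 0).card
        = ∑ ω₀ ∈ E', (E.filter fun (ω : α → Bool) => ∀ e, e ∉ K 0 → ω₀ e = ω e).card := by
      simp only [card_filter]
      rw [sum_comm, ← smul_eq_mul, ← sum_const]
      refine sum_congr rfl fun ω hω => ?_
      rw [← card_filter, ← card_agree (K 0) ω]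
      congr 1
      ext ω₀
      simp only [E', mem_filter, mem_univ, true_and]
      exact ⟨fun h => ⟨fun t => hinv 0 t.succ (Fin.succ_pos t) ω ω₀ (fun e he => (h e he).symm)
        ((mem_filter.1 hω).2 _), h⟩, fun h => h.2⟩
    have h2 : E.card * k ≤ 8 * E'.card := by
      refine Nat.le_of_mul_le_mul_right ?_ (Nat.two_pow_pos (K 0).card)
      calc E.card * k * 2 ^ (K 0).card = E.card * 2 ^ (K 0).card * k := by ring
        _ = ∑ ω₀ ∈ E', (E.filter fun (ω : α → Bool) =>
              ∀ e, e ∉ K 0 → ω₀ e = ω e).card * k := by rw [h1, sum_mul]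
        _ ≤ ∑ _ω₀ ∈ E', 8 * 2 ^ (K 0).card := sum_le_sum fun ω₀ _ => by
            refine le_trans (Nat.mul_le_mul_right k (card_le_card ?_)) (hfib 0 ω₀)
            intro ω hω
            simp only [E, mem_filter, mem_univ, true_and] at hω ⊢
            exact ⟨fun e he => (hω.2 e he).symm, hω.1 0⟩
        _ = 8 * E'.card * 2 ^ (K 0).card := by rw [sum_const, smul_eq_mul]; ring
    calc E.card * k ^ (q + 1) = E.card * k * k ^ q := by ring
      _ ≤ 8 * E'.card * k ^ q := Nat.mul_le_mul_right _ h2
      _ = 8 * (E'.card * k ^ q) := by ring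
      _ ≤ 8 * (8 ^ q * 2 ^ Fintype.card α) := Nat.mul_le_mul_left _ ih
      _ = 8 ^ (q + 1) * 2 ^ Fintype.card α := by ring

variable {ι : Type} [Fintype ι] [DecidableEq ι]

/-- The condition of a pivot column: near the span of the admissible earlier columns, on the
rows outside the pivots. -/
def Near {q : ℕ} (C : Finset ι) (d : Fin q → ι) (k : ℕ) (t : Fin q) (ω : Sym2 ι → Bool) : Prop :=
  ∃ v : ι → ℝ, (∀ j, v j ≠ 0 → j ∈ C ∧ ∀ s, s ≤ t → j ≠ d s) ∧
    ∑ r : {i // ∀ s, i ≠ d s}, (sgn (ω s(r.1, d t)) - ∑ j, v j * sgn (ω s(r.1, j))) ^ 2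
      < (k : ℝ) / 2

/-- A fixed pivot sequence rarely has all its columns near the spans. -/
lemma card_near_le {q k : ℕ} (C : Finset ι) (d : Fin q → ι) (hd : Function.Injective d)
    (hk : C.card + q + k ≤ Fintype.card ι) :
    ((univ : Finset (Sym2 ι → Bool)).filter fun (ω : Sym2 ι → Bool) =>
      ∀ t, Near C d k t ω).card * k ^ q ≤ 8 ^ q * 2 ^ Fintype.card (Sym2 ι) := by
  classical
  set R := {i // ∀ s, i ≠ d s}
  set K : Fin q → Finset (Sym2 ι) := fun t => (univ : Finset R).image fun r => s(r.1, d t) with hK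
  have hKcard : ∀ t, (K t).card = Fintype.card R := fun t => by
    rw [hK, card_image_of_injective _ fun a b hab => Subtype.ext (Sym2.congr_left.1 hab),
      card_univ]
  have hR : Fintype.card R + q = Fintype.card ι := by
    have : Fintype.card R = (univ \ univ.image d).card := by
      rw [Fintype.card_subtype]
      congr 1
      ext i
      simp [eq_comm]
    rw [this, card_univ_sdiff, card_image_of_injective _ hd, card_univ, Fintype.card_fin]
    have := Fintype.card_le_of_injective d hd
    simp at this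
    omega
  have hmem : ∀ (t : Fin q) (r : R) (j : ι), s(r.1, j) ∈ K t → j = d t := fun t r j h => by
    simp only [hK, mem_image, mem_univ, true_and] at h
    obtain ⟨r', hr'⟩ := h
    rcases Sym2.eq_iff.1 hr' with ⟨-, h2⟩ | ⟨-, h2⟩
    · exact h2.symm
    · exact absurd h2.symm (r.2 t)
  refine card_seq_le k q (fun t ω => Near C d k t ω) K ?_ ?_
  · rintro t s hts ω ω' hag ⟨v, hv, hlt⟩
    refine ⟨v, hv, lt_of_eq_of_lt (sum_congr rfl fun r _ => ?_) hlt⟩
    have e1 : ω' s(r.1, d s) = ω s(r.1, d s) := (hag _ fun h =>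
      hts.ne' (hd (hmem t r _ h))).symm
    rw [e1]
    congr 2
    refine sum_congr rfl fun j _ => ?_
    rcases eq_or_ne (v j) 0 with h0 | h0
    · simp [h0]
    · rw [hag _ fun h => (hv j h0).2 t hts.le (hmem t r j h)]
  · intro t ω₀
    set S := (C : Finset ι).image fun j => fun r : R => sgn (ω₀ s(r.1, j))
    have hW : Module.finrank ℝ (Submodule.span ℝ (S : Set (R → ℝ))) + k ≤ Fintype.card R := by
      have h1 : Module.finrank ℝ (Submodule.span ℝ (S : Set (R → ℝ))) ≤ S.card :=
        finrank_span_finset_le_card S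
      have h2 : S.card ≤ C.card := card_image_le
      omega
    have hch := card_near_subspace_le (Submodule.span ℝ (S : Set (R → ℝ))) hW
    rw [hKcard]
    set F := (univ : Finset (Sym2 ι → Bool)).filter fun (ω : Sym2 ι → Bool) =>
      (∀ e, e ∉ K t → ω e = ω₀ e) ∧ Near C d k t ω
    have hinj : Set.InjOn (fun (ω : Sym2 ι → Bool) (r : R) => ω s(r.1, d t)) F := by
      intro ω hω ω' hω' h
      funext e
      by_cases he : e ∈ K t
      · simp only [hK, mem_image, mem_univ, true_and] at he
        obtain ⟨r, rfl⟩ := he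
        exact congrFun h r
      · rw [(mem_filter.1 hω).2.1 e he, (mem_filter.1 hω').2.1 e he]
    have hsub : F.image (fun (ω : Sym2 ι → Bool) (r : R) => ω s(r.1, d t)) ⊆
        (univ : Finset (R → Bool)).filter fun (x : R → Bool) =>
          ∃ w ∈ Submodule.span ℝ (S : Set (R → ℝ)), ∑ i, (sgn (x i) - w i) ^ 2 < (k : ℝ) / 2 := by
      intro x hx
      obtain ⟨ω, hω, rfl⟩ := mem_image.1 hx
      obtain ⟨hag, v, hv, hlt⟩ := (mem_filter.1 hω).2
      refine mem_filter.2 ⟨mem_univ _, ∑ j, v j • fun r : R => sgn (ω₀ s(r.1, j)), ?_, ?_⟩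
      · refine Submodule.sum_mem _ fun j _ => ?_
        rcases eq_or_ne (v j) 0 with h0 | h0
        · simp [h0]
        · exact Submodule.smul_mem _ _
            (Submodule.subset_span (mem_coe.2 (mem_image_of_mem _ (hv j h0).1)))
      · refine lt_of_eq_of_lt (sum_congr rfl fun r _ => ?_) hlt
        congr 2
        rw [Finset.sum_apply]
        refine sum_congr rfl fun j _ => ?_
        simp only [Pi.smul_apply, smul_eq_mul]
        rcases eq_or_ne (v j) 0 with h0 | h0
        · simp [h0]
        · rw [hag _ fun h => (hv j h0).2 t le_rfl (hmem t r j h)]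
    have h3 := card_le_card hsub
    rw [card_image_of_injOn hinj] at h3
    have h4 : (F.card : ℝ) * k ≤ 8 * 2 ^ Fintype.card R :=
      le_trans (mul_le_mul_of_nonneg_right (Nat.cast_le.2 h3) (Nat.cast_nonneg k)) hch
    exact_mod_cast h4

end Vale.Agent.P160R.SmallEig
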