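import Mathlib

/-!
# Pivot coordinates of a subspace

A subspace of dimension `h + q` has `q` coordinates, in increasing order, each carrying a share
`h / card` of the mass of a vector that vanishes at the earlier ones.
-/

namespace Vale.Agent.P160R.SmallEig

open Finset
open scoped RealInnerProductSpace

variable {ι : Type} [Fintype ι]

/-- Some coordinate carries the average share of a subspace. -/
lemma exists_heavy (W : Submodule ℝ (ι → ℝ)) {h : ℕ} (h0 : 0 < h)
    (hW : h ≤ Module.finrank ℝ W) :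
    ∃ i, ∃ v ∈ W, v i ≠ 0 ∧ (h : ℝ) * ∑ j, v j ^ 2 ≤ Fintype.card ι * v i ^ 2 := by
  classical
  set W' : Submodule ℝ (EuclideanSpace ℝ ι) :=
    W.map ((WithLp.linearEquiv 2 ℝ (ι → ℝ)).symm : (ι → ℝ) →ₗ[ℝ] EuclideanSpace ℝ ι) with hW'
  have hd : h ≤ Module.finrank ℝ W' := hW.trans (LinearEquiv.finrank_map_eq _ W).ge
  set b := stdOrthonormalBasis ℝ W'
  set u : Fin (Module.finrank ℝ W') → EuclideanSpace ℝ ι := fun l => (b l : EuclideanSpace ℝ ι)
  have hu : Orthonormal ℝ u := b.orthonormal.comp_linearIsometry W'.subtypeₗᵢ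
  have horth : ∀ l p, ∑ i, u l i * u p i = if l = p then (1:ℝ) else 0 := fun l p => by
    have h1 := orthonormal_iff_ite.1 hu l p
    rw [← h1, PiLp.inner_apply]
    exact sum_congr rfl fun i _ => mul_comm _ _
  set S : ι → ℝ := fun i => ∑ l, u l i ^ 2 with hS
  have htot : ∑ i, S i = Module.finrank ℝ W' := by
    simp only [hS, sq]
    rw [sum_comm]
    simp [horth]
  have hne : (univ : Finset ι).Nonempty := by
    rw [univ_nonempty_iff]
    by_contra hc
    rw [not_nonempty_iff] at hc
    have := hc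
    rw [univ_eq_empty (α := ι), sum_empty] at htot
    have : Module.finrank ℝ W' = 0 := by exact_mod_cast htot.symm
    omega
  obtain ⟨i, -, hi⟩ := exists_max_image univ S hne
  have hbig : (h : ℝ) ≤ Fintype.card ι * S i := by
    have h1 := sum_le_card_nsmul univ S (S i) hi
    rw [htot, nsmul_eq_mul] at h1
    exact le_trans (Nat.cast_le.2 hd) h1
  have hpos : 0 < S i := by
    by_contra hc
    have h1 : (1:ℝ) ≤ h := by exact_mod_cast h0
    nlinarith [(Nat.cast_nonneg (Fintype.card ι) : (0:ℝ) ≤ _), not_lt.1 hc]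
  set v : ι → ℝ := fun j => ∑ l, u l i * u l j with hv
  have hvi : v i = S i := by simp only [hv, hS, sq]
  have hvs : ∑ j, v j ^ 2 = S i := by
    calc ∑ j, v j ^ 2 = ∑ j, ∑ l, ∑ p, u l i * u p i * (u l j * u p j) := by
          refine sum_congr rfl fun j _ => ?_
          rw [hv, sq, sum_mul_sum]
          exact sum_congr rfl fun l _ => sum_congr rfl fun p _ => by ring
      _ = ∑ l, ∑ p, u l i * u p i * ∑ j, u l j * u p j := by
          rw [sum_comm]
          refine sum_congr rfl fun l _ => ?_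
          rw [sum_comm]
          exact sum_congr rfl fun p _ => (mul_sum _ _ _).symm
      _ = S i := by simp [horth, hS, sq]
  refine ⟨i, v, ?_, by rw [hvi]; exact hpos.ne', ?_⟩
  · have : v = ∑ l, u l i • WithLp.ofLp (u l) := by
      funext j
      simp [hv, Finset.sum_apply]
    rw [this]
    refine W.sum_mem fun l _ => W.smul_mem _ ?_
    obtain ⟨w, hw, he⟩ := Submodule.mem_map.1 (b l).2
    have : WithLp.ofLp (u l) = w := by rw [← show _ = u l from he]; rfl
    rw [this]
    exact hw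
  · rw [hvs, hvi]
    nlinarith

/-- The chain of pivots. -/
lemma exists_pivots (o : ι → ℕ) (ho : Function.Injective o) {h : ℕ} (h0 : 0 < h) :
    ∀ (q : ℕ) (W : Submodule ℝ (ι → ℝ)), h + q ≤ Module.finrank ℝ W →
      ∃ d : Fin q → ι, StrictMono (o ∘ d) ∧ ∀ t, ∃ v ∈ W, v (d t) ≠ 0 ∧
        (h : ℝ) * ∑ j, v j ^ 2 ≤ Fintype.card ι * v (d t) ^ 2 ∧ ∀ s, s < t → v (d s) = 0
  | 0, W, _ => ⟨Fin.elim0, fun a => a.elim0, fun t => t.elim0⟩
  | q + 1, W, hW => by
    classical
    set Adm := (univ : Finset ι).filter fun i =>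
      ∃ v ∈ W, v i ≠ 0 ∧ (h : ℝ) * ∑ j, v j ^ 2 ≤ Fintype.card ι * v i ^ 2
    have hne : Adm.Nonempty := by
      obtain ⟨i, hi⟩ := exists_heavy W h0 (le_trans (Nat.le_add_right h _) hW)
      exact ⟨i, mem_filter.2 ⟨mem_univ _, hi⟩⟩
    obtain ⟨i₀, hi₀, hmin⟩ := exists_min_image Adm o hne
    set W' := W ⊓ LinearMap.ker (LinearMap.proj i₀ : (ι → ℝ) →ₗ[ℝ] ℝ)
    have hdim : h + q ≤ Module.finrank ℝ W' := by
      have h1 := Submodule.finrank_sup_add_finrank_inf_eq W
        (LinearMap.ker (LinearMap.proj i₀ : (ι → ℝ) →ₗ[ℝ] ℝ))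
      have h2 := Submodule.finrank_le (W ⊔ LinearMap.ker (LinearMap.proj i₀ : (ι → ℝ) →ₗ[ℝ] ℝ))
      have h3 := LinearMap.finrank_range_add_finrank_ker (LinearMap.proj i₀ : (ι → ℝ) →ₗ[ℝ] ℝ)
      have h4 := Submodule.finrank_le (LinearMap.range (LinearMap.proj i₀ : (ι → ℝ) →ₗ[ℝ] ℝ))
      rw [Module.finrank_self] at h4
      change h + q ≤ Module.finrank ℝ W' 
      simp only [W'] at *
      omega
    obtain ⟨d, hd, hv⟩ := exists_pivots o ho h0 q W' hdim
    have hlt : ∀ t, o i₀ < o (d t) := fun t => by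
      obtain ⟨v, hvW, hne0, hbig, -⟩ := hv t
      refine lt_of_le_of_ne (hmin _ (mem_filter.2 ⟨mem_univ _, v,
        (Submodule.mem_inf.1 hvW).1, hne0, hbig⟩)) fun he => hne0 ?_
      rw [← ho he]
      exact LinearMap.mem_ker.1 (Submodule.mem_inf.1 hvW).2
    refine ⟨Fin.cons i₀ d, ?_, Fin.cases ?_ ?_⟩
    · intro a b hab
      induction b using Fin.cases with
      | zero => exact absurd hab (Fin.not_lt_zero a)
      | succ b =>
        induction a using Fin.cases with
        | zero => simpa using hlt b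
        | succ a => simpa using hd (Fin.succ_lt_succ_iff.1 hab)
    · obtain ⟨v, hvW, hne0, hbig⟩ := (mem_filter.1 hi₀).2
      exact ⟨v, hvW, by simpa using hne0, by simpa using hbig, fun s hs => absurd hs (Fin.not_lt_zero s)⟩
    · intro t
      obtain ⟨v, hvW, hne0, hbig, hzero⟩ := hv t
      refine ⟨v, (Submodule.mem_inf.1 hvW).1, by simpa using hne0, by simpa using hbig, ?_⟩
      intro s hs
      induction s using Fin.cases with
      | zero => simpa using LinearMap.mem_ker.1 (Submodule.mem_inf.1 hvW).2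
      | succ s => simpa using hzero s (Fin.succ_lt_succ_iff.1 hs)

end Vale.Agent.P160R.SmallEig
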