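import Vale.Agent.P160R.Defs

/-!
# Sign vectors are rarely near a subspace of large codimension

Second moment of the squared length of the projection on the orthogonal complement.
-/

namespace Vale.Agent.P160R.SmallEig

open Finset
open scoped RealInnerProductSpace Classical

variable {κ : Type*} [Fintype κ] [DecidableEq κ]

/-- A sign. -/
def sgn (b : Bool) : ℝ := if b then 1 else -1

lemma sgn_mul_self (b : Bool) : sgn b * sgn b = 1 := by cases b <;> norm_num [sgn]

lemma sgn_not (b : Bool) : sgn (!b) = -sgn b := by cases b <;> norm_num [sgn]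

/-- The fourth-order correlations of independent signs. -/
lemma sum_sgn_four {i j k l : κ} (hij : i ≠ j) :
    ∑ x : κ → Bool, sgn (x i) * sgn (x j) * (sgn (x k) * sgn (x l))
      = if (k = i ∧ l = j) ∨ (k = j ∧ l = i) then (2:ℝ) ^ Fintype.card κ else 0 := by
  split_ifs with h
  · have : ∀ x : κ → Bool, sgn (x i) * sgn (x j) * (sgn (x k) * sgn (x l)) = 1 := by
      intro x
      rcases h with ⟨rfl, rfl⟩ | ⟨rfl, rfl⟩
      · rw [mul_mul_mul_comm, sgn_mul_self, sgn_mul_self, one_mul]
      · rw [mul_comm (sgn (x k)) (sgn (x l)), mul_mul_mul_comm, sgn_mul_self, sgn_mul_self, one_mul]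
    simp [this]
  · have hflip : ∀ a : κ, ∃ e : (κ → Bool) ≃ (κ → Bool), ∀ x b,
        sgn (e x b) = if b = a then -sgn (x b) else sgn (x b) := fun a => by
      have hinv : ∀ x : κ → Bool, Function.update (Function.update x a (!x a)) a
          (!Function.update x a (!x a) a) = x := fun x => by simp
      refine ⟨⟨fun x => Function.update x a (!x a), fun x => Function.update x a (!x a),
        hinv, hinv⟩, fun x b => ?_⟩
      rcases eq_or_ne b a with rfl | hb
      · simp [sgn_not]
      · simp [hb]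
    have key : ∀ a : κ, (∀ x : κ → Bool,
        (if i = a then -sgn (x i) else sgn (x i)) * (if j = a then -sgn (x j) else sgn (x j))
          * ((if k = a then -sgn (x k) else sgn (x k)) * (if l = a then -sgn (x l) else sgn (x l)))
          = -(sgn (x i) * sgn (x j) * (sgn (x k) * sgn (x l)))) →
        ∑ x : κ → Bool, sgn (x i) * sgn (x j) * (sgn (x k) * sgn (x l)) = 0 := fun a ha => by
      obtain ⟨e, he⟩ := hflip a
      have h1 := e.sum_comp fun x => sgn (x i) * sgn (x j) * (sgn (x k) * sgn (x l))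
      simp only [he, ha, sum_neg_distrib] at h1
      linarith
    by_cases h1 : k = i ∨ l = i
    · refine key j fun x => ?_
      have hk : k ≠ j := by
        rintro rfl
        rcases h1 with rfl | rfl
        · exact hij rfl
        · exact h (Or.inr ⟨rfl, rfl⟩)
      have hl : l ≠ j := by
        rintro rfl
        rcases h1 with rfl | rfl
        · exact h (Or.inl ⟨rfl, rfl⟩)
        · exact hij rfl
      simp [hij, hk, hl]
    · push Not at h1
      refine key i fun x => ?_
      simp [hij.symm, h1.1, h1.2]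

/-- The variance of an off-diagonal quadratic form in signs. -/
lemma sum_quad_sq (M : κ → κ → ℝ) (hs : ∀ i j, M i j = M j i) (hd : ∀ i, M i i = 0) :
    ∑ x : κ → Bool, (∑ i, ∑ j, M i j * (sgn (x i) * sgn (x j))) ^ 2
      = 2 * (2:ℝ) ^ Fintype.card κ * ∑ i, ∑ j, M i j ^ 2 := by
  have e : ∀ x : κ → Bool, (∑ i, ∑ j, M i j * (sgn (x i) * sgn (x j))) ^ 2
      = ∑ i, ∑ j, ∑ k, ∑ l, M i j * M k l * (sgn (x i) * sgn (x j) * (sgn (x k) * sgn (x l))) :=
    fun x => by
    rw [sq, sum_mul]
    refine sum_congr rfl fun i _ => ?_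
    rw [sum_mul]
    refine sum_congr rfl fun j _ => ?_
    rw [mul_sum]
    refine sum_congr rfl fun k _ => ?_
    rw [mul_sum]
    exact sum_congr rfl fun l _ => by ring
  simp only [e]
  rw [sum_comm]
  simp only [mul_sum]
  refine sum_congr rfl fun i _ => ?_
  rw [sum_comm]
  refine sum_congr rfl fun j _ => ?_
  rw [sum_comm]
  have inner : ∀ k : κ, ∑ x : κ → Bool, ∑ l,
      M i j * M k l * (sgn (x i) * sgn (x j) * (sgn (x k) * sgn (x l)))
      = ∑ l, ((if k = i ∧ l = j then (2:ℝ) ^ Fintype.card κ * M i j ^ 2 else 0)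
        + (if k = j ∧ l = i then (2:ℝ) ^ Fintype.card κ * M i j ^ 2 else 0)) := fun k => by
    rw [sum_comm]
    refine sum_congr rfl fun l _ => ?_
    rw [← mul_sum]
    rcases eq_or_ne i j with rfl | hij
    · simp [hd]
    rcases eq_or_ne k l with rfl | hkl
    · rw [hd, mul_zero, zero_mul]
      rw [if_neg fun h => hij (h.1.symm.trans h.2), if_neg fun h => hij (h.2.symm.trans h.1)]
      simp
    rw [sum_sgn_four hij]
    by_cases h1 : k = i ∧ l = j
    · obtain ⟨rfl, rfl⟩ := h1
      simp [hij]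
      ring
    by_cases h2 : k = j ∧ l = i
    · obtain ⟨rfl, rfl⟩ := h2
      simp [hij, hs l k]
      ring
    simp [h1, h2]
  simp only [inner, sum_add_distrib, ite_and, sum_ite_irrel, sum_const_zero, sum_ite_eq', mem_univ,
    if_true]
  ring

/-- Few sign vectors are near a subspace of codimension at least `k`. -/
theorem card_near_subspace_le (W : Submodule ℝ (κ → ℝ)) {k : ℕ}
    (hk : Module.finrank ℝ W + k ≤ Fintype.card κ) :
    (((univ : Finset (κ → Bool)).filter fun (x : κ → Bool) =>
        ∃ w ∈ W, ∑ i, (sgn (x i) - w i) ^ 2 < (k : ℝ) / 2).card : ℝ) * k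
      ≤ 8 * (2:ℝ) ^ Fintype.card κ := by
  classical
  rcases Nat.eq_zero_or_pos k with rfl | hk0
  · simp
  set W' : Submodule ℝ (EuclideanSpace ℝ κ) :=
    W.map ((WithLp.linearEquiv 2 ℝ (κ → ℝ)).symm : (κ → ℝ) →ₗ[ℝ] EuclideanSpace ℝ κ) with hW'
  have hdim : k ≤ Module.finrank ℝ W'ᗮ := by
    have h1 := Submodule.finrank_add_finrank_orthogonal W'
    have h2 : Module.finrank ℝ W' = Module.finrank ℝ W := LinearEquiv.finrank_map_eq _ W
    rw [finrank_euclideanSpace, h2] at h1
    omega
  set b := stdOrthonormalBasis ℝ W'ᗮ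
  set u : Fin k → EuclideanSpace ℝ κ := fun l => (b (Fin.castLE hdim l) : EuclideanSpace ℝ κ)
  have hu : Orthonormal ℝ u :=
    ((b.orthonormal.comp_linearIsometry W'ᗮ.subtypeₗᵢ).comp _
      (Fin.castLE_injective hdim))
  have hperp : ∀ l, ∀ w ∈ W', ⟪u l, w⟫ = 0 := fun l w hw =>
    Submodule.inner_left_of_mem_orthogonal hw (b (Fin.castLE hdim l)).2
  set s : (κ → Bool) → EuclideanSpace ℝ κ := fun (x : κ → Bool) => WithLp.toLp 2 fun (i : κ) => sgn (x i)
  set Q : (κ → Bool) → ℝ := fun x => ∑ l, ⟪u l, s x⟫ ^ 2 with hQ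
  have hin : ∀ (l : Fin k) x, ⟪u l, s x⟫ = ∑ i, u l i * sgn (x i) := fun l x => by
    simp [s, PiLp.inner_apply, mul_comm]
  have hnorm : ∀ l, ∑ i, u l i ^ 2 = 1 := fun l => by
    have := hu.1 l
    rw [EuclideanSpace.norm_eq, Real.sqrt_eq_one] at this
    simpa using this
  have horth : ∀ l p, ∑ i, u l i * u p i = if l = p then (1:ℝ) else 0 := fun l p => by
    have h := orthonormal_iff_ite.1 hu l p
    rw [← h, PiLp.inner_apply]
    exact sum_congr rfl fun i _ => (mul_comm _ _)
  set P : κ → κ → ℝ := fun i j => ∑ l, u l i * u l j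
  set M : κ → κ → ℝ := fun i j => if i = j then 0 else P i j
  have hQe : ∀ x, Q x = k + ∑ i, ∑ j, M i j * (sgn (x i) * sgn (x j)) := fun x => by
    have e1 : Q x = ∑ i, ∑ j, P i j * (sgn (x i) * sgn (x j)) := by
      calc Q x = ∑ l, ∑ i, ∑ j, u l i * u l j * (sgn (x i) * sgn (x j)) :=
            sum_congr rfl fun l _ => by
              rw [hin, sq, sum_mul_sum]
              exact sum_congr rfl fun i _ => sum_congr rfl fun j _ => by ring
        _ = ∑ i, ∑ j, ∑ l, u l i * u l j * (sgn (x i) * sgn (x j)) := by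
              rw [sum_comm]
              exact sum_congr rfl fun i _ => sum_comm
        _ = ∑ i, ∑ j, P i j * (sgn (x i) * sgn (x j)) := by simp only [P, sum_mul]
    have e2 : ∀ i j, P i j * (sgn (x i) * sgn (x j))
        = M i j * (sgn (x i) * sgn (x j)) + if i = j then P i i else 0 := fun i j => by
      rcases eq_or_ne i j with rfl | h
      · simp [M, sgn_mul_self]
      · simp [M, h]
    rw [e1]
    simp only [e2, sum_add_distrib, sum_ite_eq, mem_univ, if_true]
    rw [add_comm]
    congr 1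
    simp only [P, ← sq]
    rw [sum_comm]
    simp [hnorm]
  have hM : ∑ i, ∑ j, M i j ^ 2 ≤ k := by
    calc ∑ i, ∑ j, M i j ^ 2 ≤ ∑ i, ∑ j, P i j ^ 2 := sum_le_sum fun i _ => sum_le_sum fun j _ => by
          simp only [M]
          split_ifs
          · simp [sq_nonneg]
          · exact le_rfl
      _ = ∑ l, ∑ p, (∑ i, u l i * u p i) ^ 2 := by
          simp only [P, sq, sum_mul_sum]
          rw [sum_comm_cycle]
          refine sum_congr rfl fun l _ => ?_
          rw [sum_comm_cycle]
          refine sum_congr rfl fun p _ => ?_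
          exact sum_congr rfl fun i _ => sum_congr rfl fun j _ => by ring
      _ = k := by simp [horth]
  have hvar : ∑ x, (Q x - k) ^ 2 ≤ 2 * (2:ℝ) ^ Fintype.card κ * k := by
    simp only [hQe, add_sub_cancel_left]
    rw [sum_quad_sq M (fun i j => by
      simp only [M, P, eq_comm (a := i)]
      split_ifs
      · rfl
      · exact sum_congr rfl fun l _ => mul_comm _ _) fun i => by simp [M]]
    exact mul_le_mul_of_nonneg_left hM (by positivity)
  set F := (univ : Finset (κ → Bool)).filter fun (x : κ → Bool) =>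
    ∃ w ∈ W, ∑ i, (sgn (x i) - w i) ^ 2 < (k : ℝ) / 2
  have hF : (F.card : ℝ) * ((k:ℝ) ^ 2 / 4) ≤ ∑ x, (Q x - k) ^ 2 := by
    rw [← nsmul_eq_mul, ← sum_const]
    refine (sum_le_sum fun x hx => ?_).trans
      (sum_le_sum_of_subset_of_nonneg (subset_univ F) fun x _ _ => sq_nonneg _)
    obtain ⟨w, hw, hlt⟩ := (mem_filter.1 hx).2
    have hw' : (WithLp.toLp 2 w : EuclideanSpace ℝ κ) ∈ W' := Submodule.mem_map.2 ⟨w, hw, rfl⟩
    have hle : Q x ≤ ∑ i, (sgn (x i) - w i) ^ 2 := by
      have h1 := hu.sum_inner_products_le (s x - WithLp.toLp 2 w) (s := univ)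
      have h2 : ∀ l, ⟪u l, s x - WithLp.toLp 2 w⟫ = ⟪u l, s x⟫ := fun l => by
        rw [inner_sub_right, hperp l _ hw', sub_zero]
      simp only [h2, Real.norm_eq_abs, sq_abs] at h1
      refine h1.trans (le_of_eq ?_)
      rw [EuclideanSpace.norm_eq, Real.sq_sqrt (sum_nonneg fun i _ => sq_nonneg _)]
      simp [s]
    have h3 : (k:ℝ) / 2 ≤ k - Q x := by linarith
    have := mul_le_mul h3 h3 (by positivity) (by linarith [(Nat.cast_nonneg k : (0:ℝ) ≤ k)])
    nlinarith
  have hk' : (0:ℝ) < k := Nat.cast_pos.2 hk0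
  nlinarith [hF.trans hvar]

end Vale.Agent.P160R.SmallEig
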